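import Mathlib
import Vale.Agent.P034b.Main

/-!
P034, Talagrand's question: the fractional expectation threshold is within a universal
constant factor of the expectation threshold.
-/

open Finset

namespace Vale.Agent.Results.P034.TalagrandConstant

/-- Talagrand's conjecture: `q_f ≤ K q` with a universal constant `K`. -/
theorem result :
    ∃ K : ℝ, 0 < K ∧ ∀ (X : Type) [Fintype X] [DecidableEq X] (F : Finset (Finset X)),
      ∅ ∉ F →
      sSup {p : ℝ | p ∈ Set.Icc (0 : ℝ) 1 ∧ ∃ g : Finset X → ℝ,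
          (∀ S, g S ∈ Set.Icc (0 : ℝ) 1) ∧ (∀ H ∈ F, 1 ≤ ∑ S ∈ H.powerset, g S) ∧
          ∑ S, g S * p ^ S.card ≤ 1 / 2}
        ≤ K * sSup {p : ℝ | p ∈ Set.Icc (0 : ℝ) 1 ∧ ∃ G : Finset (Finset X),
            (∀ H ∈ F, ∃ S ∈ G, S ⊆ H) ∧ ∑ S ∈ G, p ^ S.card ≤ 1 / 2} := by
  classical
  refine ⟨55296, by norm_num, ?_⟩
  intro X _ _ F hF
  set T := {p : ℝ | p ∈ Set.Icc (0 : ℝ) 1 ∧ ∃ G : Finset (Finset X),
    (∀ H ∈ F, ∃ S ∈ G, S ⊆ H) ∧ ∑ S ∈ G, p ^ S.card ≤ 1 / 2} with hT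
  have hbdd : BddAbove T := ⟨1, fun p hp => hp.1.2⟩
  have hzero : (0 : ℝ) ∈ T := by
    refine ⟨⟨le_rfl, zero_le_one⟩, F, fun H hH => ⟨H, hH, subset_rfl⟩, ?_⟩
    refine le_trans (le_of_eq (sum_eq_zero fun S hS => ?_)) (by norm_num : (0:ℝ) ≤ 1 / 2)
    have : S ≠ ∅ := fun h => hF (h ▸ hS)
    simp [(nonempty_iff_ne_empty.2 this).card_pos.ne']
  refine csSup_le ⟨0, ?_⟩ ?_
  · refine ⟨⟨le_rfl, zero_le_one⟩, fun S => if S ∈ F then 1 else 0, fun S => ?_, fun H hH => ?_, ?_⟩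
    · dsimp; split_ifs <;> simp
    · calc (1:ℝ) = if H ∈ F then 1 else 0 := (if_pos hH).symm
        _ ≤ _ := single_le_sum (f := fun S => if S ∈ F then (1:ℝ) else 0)
            (fun S _ => by split_ifs <;> norm_num) (mem_powerset_self H)
    · refine le_trans (le_of_eq (sum_eq_zero fun S _ => ?_)) (by norm_num : (0:ℝ) ≤ 1 / 2)
      by_cases hS : S ∈ F
      · have : S ≠ ∅ := fun h => hF (h ▸ hS)
        simp [(nonempty_iff_ne_empty.2 this).card_pos.ne']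
      · simp [hS]
  · rintro p ⟨⟨hp0, hp1⟩, g, hg, hw, hc⟩
    rcases hp0.lt_or_eq with hpos | h0
    · obtain ⟨G, hG, hGc⟩ :=
        Vale.Agent.P034b.main hpos hp1 F g (fun S => (hg S).1) hw hc
      have hmem : p / 55296 ∈ T :=
        ⟨⟨by positivity, by linarith⟩, G, hG, hGc⟩
      linarith [le_csSup hbdd hmem]
    · linarith [le_csSup hbdd hzero]

end Vale.Agent.Results.P034.TalagrandConstant
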